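import Vale.Agent.P319.SC.H235.Triple
import Vale.Agent.P319.SC.H323.Lab
import Vale.Agent.P319.SC.H323.Block
import Vale.Agent.P319.SC.H773.GroMin

/-! P319, wave 3, block SQ: the theorem `m ^ 2 ≤ C log n`; interface. -/

namespace Vale.Agent.P319.R3.SQ

open Finset Vale.Agent.P319.SC Vale.Agent.P319.SC.H323

set_option linter.all false

/-- the octahedral sum of `f` over `X × X × Y` -/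
def Oct {V : Type} (f : V → V → V → ℝ) (X Y : Finset V) : ℝ :=
  ∑ v ∈ X, ∑ v' ∈ X, ∑ x ∈ X, ∑ x' ∈ X, ∑ y ∈ Y, ∑ y' ∈ Y,
    (f v x y * f v' x y) * (f v x' y * f v' x' y) * ((f v x y' * f v' x y') *
      (f v x' y' * f v' x' y'))

/-- **package GCS** (Gowers, Cauchy, Schwarz) -/
def GCSStmt : Prop := ∀ (V : Type) (X Y : Finset V) (f : V → V → V → ℝ) (a b : V → V → ℝ)
  (h : V → ℝ) (H : ℝ), (∀ w x, |a w x| ≤ 1) → (∀ w y, |b w y| ≤ 1) → (∀ w, |h w| ≤ H) →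
  (∑ x ∈ X, ∑ y ∈ Y, (∑ w ∈ X, f w x y * a w x * b w y * h w) ^ 2) ^ 4 ≤
    H ^ 8 * (X.card : ℝ) ^ 8 * (Y.card : ℝ) ^ 2 * Oct f X Y

/-- **package OCT0**: the octahedral sum on the ground, from `H235.star` -/
def Oct0Stmt : Prop := ∀ (V ι : Type) [Fintype V] [DecidableEq V] [DecidableEq ι] (m : ℕ)
  (𝒞 : Cfg V ι (m + 2)) (ρ₀ R T : ι) (lab : ι → ZMod 3) (D : ℕ) (v₀ : V),
  4 ≤ m → BigRank 𝒞 D → (∀ v v', BigRank ((𝒞.fix v).fix v') D) → 𝒞.c1 v₀ = ρ₀ →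
  R ∈ 𝒞.rels ρ₀ ρ₀ → T ∈ 𝒞.rels ρ₀ ρ₀ → IsLab 𝒞 R lab → UnspR 𝒞 R T → UnspL 𝒞 R T →
  ∀ ε : ZMod 3, Real.sqrt D * ((𝒞.val v₀ T : ℝ) *
    Oct (H235.labf 𝒞 R lab ε) (𝒞.cls ρ₀) (𝒞.cls ρ₀)) ≤ 768 * ((𝒞.cls ρ₀).card : ℝ) ^ 7

/-- **package TRI12**: in case (A), the rank exceeds `3 ^ (W + 1)` after `3 W + 4` steps -/
def Tri12Stmt : Prop := ∀ (V ι : Type) [Fintype V] [DecidableEq V] [DecidableEq ι] (W M : ℕ)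
  (𝒞 : Cfg V ι (M + (3 * W + 4))) (x₀ z₀ : V) (T : ι), 1 ≤ W → 1000 * (W + 1) ≤ M →
  (∀ k, M ≤ k → ∀ 𝒟 : Cfg V ι k, BigRank 𝒟 (2 ^ (M - 5))) → x₀ ≠ z₀ → 𝒞.c1 z₀ = 𝒞.c1 x₀ →
  T ∈ 𝒞.rels (𝒞.c1 x₀) (𝒞.c1 x₀) → T ≠ 𝒞.c2 x₀ x₀ → UnspR 𝒞 (𝒞.c2 x₀ z₀) T →
  UnspL 𝒞 (𝒞.c2 x₀ z₀) T →
  (∀ v w, 𝒞.c1 v = 𝒞.c1 x₀ → 𝒞.c1 w = 𝒞.c1 x₀ → v ≠ w →
    2 * (𝒞.cls (𝒞.c1 x₀)).card ≤ 2 ^ (W + 1) * 𝒞.val v (𝒞.c2 v w)) →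
  ¬ RB (𝒞.cls (𝒞.c1 x₀)) (3 ^ (W + 1)) M (3 * W + 4) 𝒞

/-- **TARGET** of the combinatorial part: `m ^ 2 ≤ C log n` (package CHAIN12: from `Tri12Stmt`,
`GroMinStmt`, `DegStmt`, as in `H323/Main23.lean`) -/
def Main12Stmt : Prop := ∃ C : ℕ, ∀ (V ι : Type) [Fintype V] [DecidableEq V] [DecidableEq ι]
  (m : ℕ) (𝒞 : Cfg V ι m), 2 ≤ Fintype.card V → (∀ a b : V, 𝒞.c1 a = 𝒞.c1 b) →
    m ^ 2 ≤ C * Nat.log 2 (Fintype.card V)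

end Vale.Agent.P319.R3.SQ
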